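import Vale.Agent.P286EJF.Alg

/-!
# The algebra of frames
-/

set_option linter.all false

namespace Vale.Agent.P286EJF

open Matrix TensorProduct Vale.Agent.P286 Vale.Agent.P286EG Vale.Agent.P286EJ

noncomputable section

variable {A B : Type} [CommRing A] [CommRing B]

/-- The universal frame. -/
structure UP (i : A →+* B) (d : Fin 3 → A) (X : M3 A) (h : M3 B) : Prop where
  fr : Fm (fun j => i (d j)) (X.map i) h
  lift : ∀ (C : Type) [CommRing C] (φ : A →+* C) (g : M3 C), Fm (fun j => φ (d j)) (X.map φ) g →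
    ∃ ψ : B →+* C, (∀ a, ψ (i a) = φ a) ∧ h.map ψ = g
  ext : ∀ (C : Type) [CommRing C] (f g : B →+* C), (∀ a, f (i a) = g (i a)) → h.map f = h.map g →
    f = g

variable {d : Fin 3 → A} {X : M3 A} {h : M3 B}

theorem UP.fm {i : A →+* B} (U : UP i d X h) {C : Type} [CommRing C] (f : B →+* C) (φ : A →+* C)
    (hf : ∀ a, f (i a) = φ a) : Fm (fun j => φ (d j)) (X.map φ) (h.map f) := by
  have := U.fr.map f
  rwa [Matrix.map_map, show f ∘ i = φ from funext hf, funext fun j => hf (d j)] at this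

/-- Comparison of two maps on an open and closed piece. -/
theorem UP.cmp {i : A →+* B} (U : UP i d X h) {C : Type} [CommRing C] (f g : B →+* C)
    (hfg : ∀ a, f (i a) = g (i a)) {ε : C} (hε : ε * ε = ε)
    (hh : ∀ p q, ε * f (h p q) = ε * g (h p q)) (b : B) : ε * f b = ε * g b := by
  let π := Ideal.Quotient.mk (Ideal.span {1 - ε})
  have h1 : π ε = 1 := by
    rw [eq_comm, ← map_one π, Ideal.Quotient.eq]
    exact Ideal.mem_span_singleton_self _
  have := U.ext _ (π.comp f) (π.comp g) (fun a => congrArg π (hfg a)) (by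
    ext p q
    have := congrArg π (hh p q)
    rwa [map_mul, map_mul, h1, one_mul, one_mul] at this)
  obtain ⟨c, hc⟩ := Ideal.mem_span_singleton'.1 (Ideal.Quotient.eq.1 (RingHom.congr_fun this b))
  linear_combination -ε * hc - c * hε

theorem UP.etale [Algebra A B] (U : UP (algebraMap A B) d X h) (hd : Sp d) (hX : Sy d X) :
    Algebra.FormallyEtale A B := by
  refine Algebra.FormallyEtale.iff_comp_bijective.2 fun C _ _ I hI => ⟨fun f g hfg => ?_, fun f => ?_⟩
  · refine AlgHom.coe_ringHom_injective (U.ext C f g (fun a => by simp) ?_)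
    refine Fm.uniq (hd.map (algebraMap A C)) (U.fm (g : B →+* C) _ g.commutes)
      (U.fm (f : B →+* C) _ f.commutes) I hI ?_
    ext p q
    exact AlgHom.congr_fun hfg (h p q)
  · have H := U.fm (f : B →+* C ⧸ I) ((Ideal.Quotient.mk I).comp (algebraMap A C)) f.commutes
    obtain ⟨g, hg, hg'⟩ := Fm.lift (hd.map (algebraMap A C)) (hX.map (algebraMap A C)) I hI
      (g := h.map f) (by rw [Matrix.map_map]; exact H)
    obtain ⟨ψ, h1, h2⟩ := U.lift C _ g hg
    refine ⟨⟨ψ, h1⟩, AlgHom.coe_ringHom_injective (U.ext _ _ _ (fun a => by simp) ?_)⟩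
    rw [← h2, Matrix.map_map] at hg'
    exact hg'

theorem UP.ff [Algebra A B] [Module.Flat A B] (U : UP (algebraMap A B) d X h) (hd : Sp d)
    (hX : Sy d X) : Module.FaithfullyFlat A B := by
  refine Module.FaithfullyFlat.of_comap_surjective fun p => ?_
  let L := AlgebraicClosure p.asIdeal.ResidueField
  let φ : A →+* L := (algebraMap p.asIdeal.ResidueField L).comp (algebraMap A _)
  obtain ⟨g, hg⟩ := exists_frame (hd.map φ) (hX.map φ)
  obtain ⟨ψ, h1, -⟩ := U.lift L φ g hg
  refine ⟨⟨RingHom.ker ψ, RingHom.ker_isPrime ψ⟩, PrimeSpectrum.ext (Ideal.ext fun a => ?_)⟩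
  rw [PrimeSpectrum.comap_asIdeal, Ideal.mem_comap, RingHom.mem_ker, h1]
  simp [φ]

theorem dg_map {C : Type} [CommRing C] (f : B →+* C) (k : K4) : (dg B k).map f = dg C k := by
  rw [dg, map_diag]; simp [dg]

theorem UP.inv [Algebra A B] [Module.FaithfullyFlat A B] (U : UP (algebraMap A B) d X h)
    (hd : Sp d) (σ : K4 → B →+* B) (h1 : ∀ k a, σ k (algebraMap A B a) = algebraMap A B a)
    (h2 : ∀ k, h.map (σ k) = dg B k * h) (b : B) (hb : ∀ k, σ k b = b) :
    ∃ a, algebraMap A B a = b := by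
  let f : B →ₐ[A] B ⊗[A] B := Algebra.TensorProduct.includeLeft
  let g : B →ₐ[A] B ⊗[A] B := Algebra.TensorProduct.includeRight
  have hd' := hd.map (algebraMap A (B ⊗[A] B))
  obtain ⟨s, s1, s2, s3, -⟩ := two_frames hd' (U.fm (f : B →+* _) _ f.commutes)
    (U.fm (g : B →+* _) _ g.commutes)
  obtain ⟨t, ht⟩ := hd'.two.exists_right_inv
  have key : ∀ k, ide t s k * g b = ide t s k * f b := fun k => by
    have := U.cmp (g : B →+* _) ((f : B →+* _).comp (σ k)) (fun a => by simp [h1])
      (ide_idem ht s1 s2 k) (fun p q => ?_) b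
    · rwa [RingHom.comp_apply, hb] at this
    · have e1 := congrFun (congrFun s3 p) q
      have e2 := congrFun (congrFun (h2 k) p) q
      rw [diagonal_mul, map_apply, map_apply] at e1
      rw [dg, diagonal_mul, map_apply] at e2
      rw [RingHom.comp_apply, e1, e2, map_mul, map_intCast, ← mul_assoc, ide_mul s1 s2, mul_assoc]
  have : f b = g b := by
    rw [← one_mul (f b), ← one_mul (g b), ← ide_sum ht s, Finset.sum_mul, Finset.sum_mul]
    exact Finset.sum_congr rfl fun k _ => (key k).symm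
  exact (Algebra.IsEffective.of_faithfullyFlat A B b).1 (by
    rw [Algebra.TensorProduct.includeLeftSubRight_apply]; exact sub_eq_zero.2 this)

theorem UP.split {i : A →+* B} (U : UP i d X h) (hd : Sp d) (ev : B →+* A) (σ : K4 → B →+* B)
    (h0 : ∀ a, ev (i a) = a) (h1 : ∀ k a, σ k (i a) = i a) (h2 : ∀ k, h.map (σ k) = dg B k * h) :
    ∃ ε : B, ε * ε = ε ∧ ∑ k, σ k ε = 1 ∧ (∀ k, k ≠ 1 → σ k ε * ε = 0) ∧
      ∀ b, ε * b = ε * i (ev b) ∧ ev ε = 1 := by
  have F2 := U.fm (i.comp ev) i fun a => congrArg i (h0 a)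
  obtain ⟨s, s1, s2, s3, -⟩ := two_frames (hd.map i) F2 U.fr
  obtain ⟨t, ht⟩ := hd.two.exists_right_inv
  have ht' : 2 * i t = 1 := by rw [← map_ofNat i 2, ← map_mul, ht, map_one]
  have canc : ∀ {C : Type} [CommRing C] {u v : Fin 3 → C} {M : M3 C}, M * Mᵀ = 1 →
      diagonal u * M = diagonal v * M → u = v := fun {C _ u v M} hM huv => by
    have := congrArg (· * Mᵀ) huv
    simp only [Matrix.mul_assoc, hM, Matrix.mul_one] at this
    exact diagonal_injective this
  have e1 : ∀ k, (fun j => σ k (s j)) = fun j => ((sg k j : ℤ) : B) * s j := fun k => by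
    refine canc F2.orth ?_
    have := congrArg (·.map (σ k)) s3
    simp only [Matrix.map_mul, map_diag, Matrix.map_map] at this
    rw [show σ k ∘ (i.comp ev) = i.comp ev from funext fun b => h1 k _, h2 k] at this
    rw [← this, ← diagonal_mul_diagonal, Matrix.mul_assoc, ← s3, dg]
  have e2 : (fun j => ev (s j)) = fun _ => 1 := by
    refine canc (U.fr.map ev).orth ?_
    have := congrArg (·.map ev) s3
    simp only [Matrix.map_mul, map_diag, Matrix.map_map] at this
    rw [show ev ∘ (i.comp ev) = ev from funext fun b => h0 _] at this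
    rw [← this, diagonal_one, Matrix.one_mul]
  have e3 : ∀ k, σ k (ide (i t) s 1) = ide (i t) s k := fun k => by
    have a0 := congrFun (e1 k) 0
    have a1 := congrFun (e1 k) 1
    simp only [ide, map_mul, map_add, map_one, h1, Prod.fst_one, Prod.snd_one, Units.val_one,
      Int.cast_one, one_mul] at a0 a1 ⊢
    rw [a0, a1]; rfl
  refine ⟨ide (i t) s 1, ide_idem ht' s1 s2 1, ?_, fun k hk => ?_, fun b => ⟨?_, ?_⟩⟩
  · simp only [e3]; exact ide_sum ht' s
  · rw [e3]; exact ide_orth s1 hk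
  · refine U.cmp (RingHom.id B) (i.comp ev) (fun a => congrArg i (h0 a).symm)
      (ide_idem ht' s1 s2 1) (fun p q => ?_) b
    have e4 := congrFun (congrFun s3 p) q
    rw [diagonal_mul, map_apply] at e4
    have e5 : sg 1 p = 1 := by fin_cases p <;> rfl
    rw [RingHom.id_apply]
    conv_lhs => rw [e4, ← mul_assoc, ide_mul s1 s2, e5]
    simp
  · have a0 := congrFun e2 0
    have a1 := congrFun e2 1
    simp only [ide, map_mul, map_add, map_one, h0, Prod.fst_one, Prod.snd_one, Units.val_one,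
      Int.cast_one, one_mul] at a0 a1 ⊢
    rw [a0, a1]
    linear_combination (2 * t + 1) * ht

theorem UP.push {A' B' : Type} [CommRing A'] [CommRing B'] [Algebra A A'] [Algebra A B]
    [Algebra A' B'] [Algebra B B'] [Algebra A B'] [IsScalarTower A A' B'] [IsScalarTower A B B']
    {d' : Fin 3 → A'} {X' g : M3 A'} {h' : M3 B'} (U : UP (algebraMap A B) d X h)
    (U' : UP (algebraMap A' B') d' X' h') (hd : ∀ j, algebraMap A A' (d j) = d' j)
    (g1 : gᵀ * g = 1) (g2 : g.det = 1) (g3 : g * X.map (algebraMap A A') = X' * g)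
    (hh : h.map (algebraMap B B') = h' * g.map (algebraMap A' B')) :
    Algebra.IsPushout A A' B B' := by
  let u : A' ⊗[A] B →ₐ[A'] B' := Algebra.TensorProduct.lift (Algebra.ofId A' B')
    (IsScalarTower.toAlgHom A B B') fun _ _ => .all _ _
  let l : A' →+* A' ⊗[A] B := algebraMap _ _
  let r : B →ₐ[A] A' ⊗[A] B := Algebra.TensorProduct.includeRight
  have ul : ∀ a, u (l a) = algebraMap A' B' a := u.commutes
  have ur : ∀ b, u (r b) = algebraMap B B' b := fun b => by simp [u, r]
  have g1' : g * gᵀ = 1 := mul_eq_one_comm.1 g1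
  have F := U.fm (r : B →+* _) (l.comp (algebraMap A A')) fun a => r.commutes a
  have g4 : gᵀ * X' = X.map (algebraMap A A') * gᵀ := by
    rw [← Matrix.mul_one (gᵀ * X'), ← g1', Matrix.mul_assoc, ← Matrix.mul_assoc X', ← g3,
      ← Matrix.mul_assoc, ← Matrix.mul_assoc, g1, Matrix.one_mul]
  obtain ⟨v, v1, v2⟩ := U'.lift _ l (h.map (r : B →+* _) * gᵀ.map l) ⟨by
      rw [transpose_mul, Matrix.mul_assoc, ← Matrix.mul_assoc _ (h.map _), F.1, Matrix.one_mul,
        ← transpose_map, transpose_transpose, ← Matrix.map_mul, g1', map_one'],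
    by rw [det_mul, F.2.1, det_map, det_transpose, g2, map_one, one_mul], by
      rw [Matrix.mul_assoc, ← Matrix.map_mul, g4, Matrix.map_mul, ← Matrix.mul_assoc,
        Matrix.map_map, ← Matrix.mul_assoc]
      congr 1
      refine F.2.2.trans ?_
      simp only [RingHom.comp_apply, hd]⟩
  have uv : (u : A' ⊗[A] B →+* B').comp v = RingHom.id B' := U'.ext _ _ _
    (fun a => by rw [RingHom.comp_apply, v1]; exact ul a) (by
      rw [RingHom.coe_comp, ← Matrix.map_map, v2, Matrix.map_mul, Matrix.map_map, Matrix.map_map,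
        show (u : A' ⊗[A] B →+* B') ∘ (r : B →+* _) = algebraMap B B' from funext ur,
        show (u : A' ⊗[A] B →+* B') ∘ l = algebraMap A' B' from funext ul, hh, Matrix.mul_assoc,
        ← Matrix.map_mul, g1', map_one', Matrix.mul_one, RingHom.coe_id, Matrix.map_id])
  have vr : v.comp (algebraMap B B') = r := U.ext _ _ _
    (fun a => by
      rw [RingHom.comp_apply, ← IsScalarTower.algebraMap_apply,
        IsScalarTower.algebraMap_apply A A' B', v1]
      exact (r.commutes a).symm) (by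
      rw [RingHom.coe_comp, ← Matrix.map_map, hh, Matrix.map_mul, v2, Matrix.map_map,
        show v ∘ algebraMap A' B' = l from funext v1, Matrix.mul_assoc, ← Matrix.map_mul, g1,
        map_one', Matrix.mul_one])
  have vu : ∀ x, v (u x) = x := fun x => by
    induction x with
    | zero => simp
    | add x y hx hy => rw [map_add, map_add, hx, hy]
    | tmul a b =>
      have : a ⊗ₜ[A] b = l a * r b := by simp [l, r]
      rw [this, map_mul, map_mul, ul, ur, v1]
      exact congrArg _ (RingHom.congr_fun vr b)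
  exact ⟨IsBaseChange.of_equiv (LinearEquiv.ofBijective u.toLinearMap
    ⟨Function.LeftInverse.injective vu, fun y => ⟨v y, RingHom.congr_fun uv y⟩⟩) ur⟩

/-- The generic matrix. -/
def gm (A : Type) [CommRing A] : M3 (MvPolynomial (Fin 3 × Fin 3) A) :=
  of fun p q => MvPolynomial.X (p, q)

/-- The relations. -/
def rel (d : Fin 3 → A) (X : M3 A) :
    (Fin 3 × Fin 3) ⊕ Unit ⊕ (Fin 3 × Fin 3) → MvPolynomial (Fin 3 × Fin 3) A :=
  Sum.elim (fun p => ((gm A)ᵀ * gm A - 1) p.1 p.2) (Sum.elim (fun _ => (gm A).det - 1)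
    fun p => (gm A * X.map MvPolynomial.C - diagonal (fun j => MvPolynomial.C (d j)) * gm A :
      M3 (MvPolynomial (Fin 3 × Fin 3) A)) p.1 p.2)

theorem rel_iff {C : Type} [CommRing C] (f : MvPolynomial (Fin 3 × Fin 3) A →+* C) (φ : A →+* C)
    (hf : ∀ a, f (MvPolynomial.C a) = φ a) :
    (∀ n, f (rel d X n) = 0) ↔ Fm (fun j => φ (d j)) (X.map φ) ((gm A).map f) := by
  have e1 : ((gm A)ᵀ * gm A - 1).map f = ((gm A).map f)ᵀ * (gm A).map f - 1 := by
    rw [Matrix.map_sub _ (map_sub f), Matrix.map_mul, map_one', transpose_map]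
  have e2 : f ((gm A).det - 1) = ((gm A).map f).det - 1 := by rw [map_sub, map_one, det_map]
  have e3 : (gm A * X.map MvPolynomial.C - diagonal (fun j => MvPolynomial.C (d j)) * gm A).map f =
      (gm A).map f * X.map φ - diagonal (fun j => φ (d j)) * (gm A).map f := by
    rw [Matrix.map_sub _ (map_sub f), Matrix.map_mul, Matrix.map_mul, map_diag, Matrix.map_map,
      show f ∘ MvPolynomial.C = φ from funext hf, funext fun j => hf (d j)]
  unfold Fm
  rw [← sub_eq_zero, ← sub_eq_zero (a := det _), ← sub_eq_zero (a := _ * X.map φ), ← e1, ← e2,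
    ← e3]
  constructor
  · exact fun H => ⟨Matrix.ext fun p q => H (.inl (p, q)), H (.inr (.inl ())),
      Matrix.ext fun p q => H (.inr (.inr (p, q)))⟩
  · rintro ⟨h1, h2, h3⟩ (p | _ | p)
    exacts [congrFun (congrFun h1 p.1) p.2, h2, congrFun (congrFun h3 p.1) p.2]

/-- The algebra of frames. -/
abbrev FA (d : Fin 3 → A) (X : M3 A) : Type :=
  MvPolynomial (Fin 3 × Fin 3) A ⧸ Ideal.span (Set.range (rel d X))

theorem up (d : Fin 3 → A) (X : M3 A) :
    UP (algebraMap A (FA d X)) d X ((gm A).map (Ideal.Quotient.mk _)) where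
  fr := (rel_iff _ _ fun _ => rfl).1 fun n =>
    Ideal.Quotient.eq_zero_iff_mem.2 (Ideal.subset_span ⟨n, rfl⟩)
  lift C _ φ g H := by
    let f := MvPolynomial.eval₂Hom φ fun p : Fin 3 × Fin 3 => g p.1 p.2
    have e : (gm A).map f = g := by ext p q; simp [gm, f]
    have := (rel_iff (d := d) (X := X) f φ fun a => by simp [f]).2 (e ▸ H)
    refine ⟨Ideal.Quotient.lift _ f fun a ha => ?_, fun a => ?_, ?_⟩
    · exact (Ideal.span_le (I := RingHom.ker f)).2 (by rintro _ ⟨n, rfl⟩; exact this n) ha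
    · exact MvPolynomial.eval₂Hom_C φ _ a
    · rw [Matrix.map_map]; exact e
  ext C _ f g h1 h2 := Ideal.Quotient.ringHom_ext (MvPolynomial.ringHom_ext h1
    fun p => congrFun (congrFun h2 p.1) p.2)

instance (d : Fin 3 → A) (X : M3 A) : Algebra.FinitePresentation A (FA d X) :=
  Algebra.FinitePresentation.quotient (Submodule.fg_span (Set.finite_range _))

theorem fa_smooth (hd : Sp d) (hX : Sy d X) : Algebra.Smooth A (FA d X) :=
  have := (up d X).etale hd hX
  ⟨inferInstance, inferInstance⟩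

theorem fa_ff (hd : Sp d) (hX : Sy d X) : Module.FaithfullyFlat A (FA d X) :=
  have := fa_smooth hd hX
  (up d X).ff hd hX

theorem sp {e : Fin 3 → ℂ} (he : Function.Injective e) (A : Type) [CommRing A] [Algebra ℂ A] :
    Sp fun j => algebraMap ℂ A (e j) :=
  Sp.map ⟨two_ne_zero.isUnit, fun i j hij => (sub_ne_zero.2 (he.ne hij)).isUnit⟩ _

theorem isFr_iff {e : Fin 3 → ℂ} {C : Type} [CommRing C] [Algebra ℂ A] [Algebra ℂ C]
    (φ : A →ₐ[ℂ] C) (g : M3 C) : IsFr e (X.map φ) g ↔
      Fm (fun j => (φ : A →+* C) (algebraMap ℂ A (e j))) (X.map (φ : A →+* C)) g := by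
  simp only [RingHom.coe_coe, AlgHom.commutes]
  rfl

theorem fr_up {e : Fin 3 → ℂ} {A : SmAlg} {X : M3 A.R} (F : Fr e A X) :
    UP F.i.r (fun j => algebraMap ℂ A.R (e j)) X F.h where
  fr := (isFr_iff F.i _).1 F.fr
  lift C _ φ g H := by
    letI : Algebra ℂ C := (φ.comp (algebraMap ℂ A.R)).toAlgebra
    obtain ⟨ψ, hψ, -⟩ := F.lift C ⟨φ, fun _ => rfl⟩ g ((isFr_iff _ _).2 H)
    exact ⟨ψ, hψ⟩
  ext C _ f g h1 h2 := by
    letI : Algebra ℂ C := (f.comp (algebraMap ℂ F.B.R)).toAlgebra
    let f' : F.B.R →ₐ[ℂ] C := ⟨f, fun _ => rfl⟩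
    let g' : F.B.R →ₐ[ℂ] C := ⟨g, fun c => by
      rw [← F.i.commutes]
      exact (h1 _).symm.trans (congrArg f (F.i.commutes c))⟩
    have H := ((isFr_iff F.i _).1 F.fr).map f
    rw [Matrix.map_map] at H
    have := (F.lift C (f'.comp F.i) (F.h.map f) ((isFr_iff _ _).2 H)).unique
      (y₁ := f') (y₂ := g') ⟨fun _ => rfl, rfl⟩ ⟨fun a => (h1 a).symm, h2.symm⟩
    exact congrArg AlgHom.toRingHom this

theorem fre : FRE := fun e he A X hX => by
  have hd := sp he A.R
  have hX' : Sy (fun j => algebraMap ℂ A.R (e j)) X := hX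
  have U := up (fun j => algebraMap ℂ A.R (e j)) X
  have h1 := fa_smooth hd hX'
  have h2 := fa_ff hd hX'
  have h3 := U.etale hd hX'
  have h4 : Algebra.Smooth ℂ (FA (fun j => algebraMap ℂ A.R (e j)) X) :=
    Algebra.Smooth.comp ℂ A.R _
  refine ⟨⟨⟨FA (fun j => algebraMap ℂ A.R (e j)) X⟩, IsScalarTower.toAlgHom ℂ A.R _, _,
    (isFr_iff _ _).2 U.fr, fun C _ _ φ g H => ?_, RingHom.formallyEtale_algebraMap.2 h3,
    RingHom.flat_algebraMap_iff.2 inferInstance, FaithfulSMul.algebraMap_injective A.R _,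
    fun σ s1 s2 => U.inv hd (fun k => σ k) s1 s2⟩⟩
  obtain ⟨ψ, p1, p2⟩ := U.lift C φ g ((isFr_iff _ _).1 H)
  refine ⟨⟨ψ, fun c => (p1 (algebraMap ℂ A.R c)).trans (φ.commutes c)⟩, ⟨p1, p2⟩, fun ψ' H' => ?_⟩
  exact AlgHom.coe_ringHom_injective (U.ext C _ _ (fun a => (H'.1 a).trans (p1 a).symm)
    (H'.2.trans p2.symm))

theorem frp : FRP := fun e A A' X X' F F' φ g g1 g2 g3 ψ h1 h2 => by
  refine PO.of_alg h1 F.flat ?_
  letI := φ.r.toAlgebra
  letI := F.i.r.toAlgebra
  letI := F'.i.r.toAlgebra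
  letI := ψ.r.toAlgebra
  letI := (F'.i.r.comp φ.r).toAlgebra
  haveI : IsScalarTower A.R A'.R F'.B.R := .of_algebraMap_eq fun _ => rfl
  haveI : IsScalarTower A.R F.B.R F'.B.R := .of_algebraMap_eq fun x => (h1 x).symm
  exact UP.push (fr_up F) (fr_up F') (fun j => φ.commutes _) g1 g2 g3 h2

theorem frs : FRS := fun e he A X F ev σ h0 h1 h2 =>
  (fr_up F).split (sp he A.R) ev (fun k => σ k) h0 h1 h2

theorem skw : SKW := fun e he A _ _ X Z hX hZ hc => by
  have hd := sp he A
  have hX' : Sy (fun j => algebraMap ℂ A (e j)) X := hX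
  have h2 := fa_ff hd hX'
  have F := (up (fun j => algebraMap ℂ A (e j)) X).fr
  set i := algebraMap A (FA (fun j => algebraMap ℂ A (e j)) X) with hi
  have hinj : Function.Injective i := FaithfulSMul.algebraMap_injective A _
  generalize (gm A).map _ = h at F
  have hd' := hd.map i
  have e1 : h * Z.map i * X.map i = h * X.map i * Z.map i := by
    rw [Matrix.mul_assoc, Matrix.mul_assoc, ← Matrix.map_mul, ← Matrix.map_mul, hc]
  rw [F.2.2, Matrix.mul_assoc _ h] at e1
  have e2 := offd hd' (intw F.symm F.2.2 e1)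
  have e3 : (h * Z.map i * hᵀ)ᵀ = -(h * Z.map i * hᵀ) := by
    rw [transpose_mul, transpose_mul, transpose_transpose, ← transpose_map, hZ,
      Matrix.map_neg _ (map_neg i), Matrix.neg_mul, Matrix.mul_neg, Matrix.mul_assoc]
  have e4 : h * Z.map i * hᵀ = 0 := by
    rw [e2, ← diagonal_zero]
    congr 1
    funext p
    have := congrFun (congrFun e3 p) p
    rw [transpose_apply, neg_apply] at this
    exact hd'.two.mul_right_eq_zero.1 (by linear_combination this)
  have e5 : Z.map i = 0 := by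
    have := congrArg (fun M => hᵀ * M * h) e4
    simp only [Matrix.mul_assoc, F.1, Matrix.mul_one, Matrix.mul_zero, Matrix.zero_mul] at this
    rwa [← Matrix.mul_assoc, F.1, Matrix.one_mul] at this
  ext p q
  exact hinj ((congrFun (congrFun e5 p) q).trans (map_zero i).symm)

end

end Vale.Agent.P286EJF
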