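import Vale.Agent.P286EJ.Defs

/-!
# Frames of a symmetric matrix: matrix algebra
-/

set_option linter.all false

namespace Vale.Agent.P286EJF

open Matrix Vale.Agent.P286EJ

noncomputable section

/-- Square matrices of size three. -/
abbrev M3 (A : Type) : Type := Matrix (Fin 3) (Fin 3) A

variable {A B : Type} [CommRing A] [CommRing B]

/-- A frame which diagonalises `X`. -/
def Fm (d : Fin 3 → A) (X h : M3 A) : Prop := hᵀ * h = 1 ∧ h.det = 1 ∧ h * X = diagonal d * h

/-- The eigenvalues are distinct everywhere. -/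
structure Sp (d : Fin 3 → A) : Prop where
  two : IsUnit (2 : A)
  sep : ∀ i j, i ≠ j → IsUnit (d i - d j)

/-- A symmetric matrix with the eigenvalues `d`. -/
def Sy (d : Fin 3 → A) (X : M3 A) : Prop := Xᵀ = X ∧ ∀ i, (X - d i • (1 : M3 A)).det = 0

variable {d : Fin 3 → A} {X h h' : M3 A}

theorem Sp.map (H : Sp d) (f : A →+* B) : Sp fun i => f (d i) :=
  ⟨by have := H.two.map f; rwa [map_ofNat] at this,
    fun i j hij => by rw [← map_sub]; exact (H.sep i j hij).map f⟩

theorem map_sub_smul (f : A →+* B) (X : M3 A) (c : A) :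
    (X - c • (1 : M3 A)).map f = X.map f - f c • (1 : M3 B) := by
  ext i j
  by_cases hij : i = j <;> simp [Matrix.one_apply, hij]

theorem Sy.map (H : Sy d X) (f : A →+* B) : Sy (fun i => f (d i)) (X.map f) :=
  ⟨by rw [← transpose_map, H.1], fun i => by
    rw [← map_sub_smul, ← RingHom.mapMatrix_apply, ← RingHom.map_det, H.2, map_zero]⟩

theorem map_diag (f : A →+* B) (d : Fin 3 → A) :
    (diagonal d).map f = diagonal fun i => f (d i) := diagonal_map (map_zero f)

theorem map_one' (f : A →+* B) : (1 : M3 A).map f = 1 := Matrix.map_one f (map_zero f) (map_one f)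

theorem det_map (f : A →+* B) (h : M3 A) : (h.map f).det = f h.det := by
  rw [← RingHom.mapMatrix_apply, ← RingHom.map_det]

theorem Fm.map (H : Fm d X h) (f : A →+* B) : Fm (fun i => f (d i)) (X.map f) (h.map f) :=
  ⟨by rw [← transpose_map, ← Matrix.map_mul, H.1, map_one'], by rw [det_map, H.2.1, map_one],
    by rw [← Matrix.map_mul, H.2.2, Matrix.map_mul, map_diag]⟩

theorem Fm.orth (H : Fm d X h) : h * hᵀ = 1 := mul_eq_one_comm.1 H.1

theorem Fm.symm (H : Fm d X h) : Xᵀ = X := by
  have : X = hᵀ * diagonal d * h := by rw [Matrix.mul_assoc, ← H.2.2, ← Matrix.mul_assoc, H.1, Matrix.one_mul]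
  rw [this, transpose_mul, transpose_mul, transpose_transpose, diagonal_transpose, Matrix.mul_assoc]

theorem offd (hd : Sp d) {G : M3 A} (hG : G * diagonal d = diagonal d * G) :
    G = diagonal fun i => G i i := by
  ext i j
  by_cases hij : i = j
  · subst hij; simp
  · rw [diagonal_apply_ne _ hij]
    have := congrFun (congrFun hG i) j
    rw [mul_diagonal, diagonal_mul] at this
    exact (hd.sep i j hij).mul_right_eq_zero.1 (by linear_combination -this)

theorem intw (hX : Xᵀ = X) (h1 : h * X = diagonal d * h) (h2 : h' * X = diagonal d * h') :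
    h' * hᵀ * diagonal d = diagonal d * (h' * hᵀ) := by
  have : hᵀ * diagonal d = X * hᵀ := by
    have := congrArg transpose h1
    rw [transpose_mul, transpose_mul, diagonal_transpose, hX] at this
    exact this.symm
  rw [Matrix.mul_assoc, this, ← Matrix.mul_assoc, h2, Matrix.mul_assoc]

/-- Two frames differ by signs. -/
theorem two_frames (hd : Sp d) (H : Fm d X h) (H' : Fm d X h') :
    ∃ s : Fin 3 → A, (∀ i, s i * s i = 1) ∧ s 2 = s 0 * s 1 ∧ h' = diagonal s * h ∧
      ∀ i, s i = (h' * hᵀ) i i := by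
  have hG := offd hd (intw H.symm H.2.2 H'.2.2)
  set s : Fin 3 → A := fun i => (h' * hᵀ) i i with hs
  have h1 : ∀ i, s i * s i = 1 := by
    have : diagonal s * diagonal s = 1 := by
      rw [← diagonal_transpose s]
      conv_lhs => rw [diagonal_transpose s, ← hG]
      conv_lhs => rhs; rw [hG, ← diagonal_transpose s, ← hG]
      rw [transpose_mul, transpose_transpose, Matrix.mul_assoc, ← Matrix.mul_assoc hᵀ, H.1,
        Matrix.one_mul, H'.orth]
    intro i
    have := congrFun (congrFun this i) i
    simpa using this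
  have h2 : s 0 * s 1 * s 2 = 1 := by
    have := congrArg det hG
    rw [det_mul, det_transpose, H.2.1, H'.2.1, det_diagonal, Fin.prod_univ_three] at this
    rw [← this, one_mul]
  refine ⟨s, h1, ?_, ?_, fun _ => rfl⟩
  · linear_combination (s 0 * s 1) * h2 - s 2 * s 1 * s 1 * h1 0 - s 2 * h1 1
  · rw [← hG, Matrix.mul_assoc, H.1, Matrix.mul_one]

/-- The idempotent on which the signs `s` are those of `k`. -/
def ide (t : A) (s : Fin 3 → A) (k : K4) : A :=
  t * t * (1 + ((k.1 : ℤ) : A) * s 0) * (1 + ((k.2 : ℤ) : A) * s 1)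

theorem usq (u : ℤˣ) : ((u : ℤ) : A) * ((u : ℤ) : A) = 1 := by
  rw [← Int.cast_mul, ← Units.val_mul, Int.units_mul_self]; simp

theorem ide_sum {t : A} (ht : 2 * t = 1) (s : Fin 3 → A) : ∑ k, ide t s k = 1 := by
  rw [Fintype.sum_prod_type]
  simp only [UnitsInt.univ, ide]
  rw [Finset.sum_pair (by decide), Finset.sum_pair (by decide), Finset.sum_pair (by decide)]
  simp only [Units.val_one, Units.val_neg, Int.cast_one, Int.cast_neg]
  linear_combination (2 * t + 1) * ht

theorem ide_mul {t : A} {s : Fin 3 → A} (h1 : ∀ i, s i * s i = 1) (h2 : s 2 = s 0 * s 1) (k : K4)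
    (i : Fin 3) : ide t s k * s i = ide t s k * ((sg k i : ℤ) : A) := by
  have a := usq (A := A) k.1
  have b := usq (A := A) k.2
  have h0 : ide t s k * s 0 = ide t s k * ((k.1 : ℤ) : A) := by
    unfold ide
    linear_combination t * t * (1 + ((k.2 : ℤ) : A) * s 1) * (((k.1 : ℤ) : A) * h1 0 - s 0 * a)
  have h1' : ide t s k * s 1 = ide t s k * ((k.2 : ℤ) : A) := by
    unfold ide
    linear_combination t * t * (1 + ((k.1 : ℤ) : A) * s 0) * (((k.2 : ℤ) : A) * h1 1 - s 1 * b)
  fin_cases i
  · exact h0
  · exact h1'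
  · show ide t s k * s 2 = ide t s k * (((k.1 * k.2 : ℤˣ) : ℤ) : A)
    rw [Units.val_mul, Int.cast_mul, h2]
    linear_combination s 1 * h0 + ((k.1 : ℤ) : A) * h1'

theorem ide_idem {t : A} (ht : 2 * t = 1) {s : Fin 3 → A} (h1 : ∀ i, s i * s i = 1)
    (h2 : s 2 = s 0 * s 1) (k : K4) : ide t s k * ide t s k = ide t s k := by
  have a := usq (A := A) k.1
  have b := usq (A := A) k.2
  have h0 : ide t s k * s 0 = ide t s k * ((k.1 : ℤ) : A) := ide_mul h1 h2 k 0
  have h1' : ide t s k * s 1 = ide t s k * ((k.2 : ℤ) : A) := ide_mul h1 h2 k 1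
  have c0 : ide t s k * (1 + ((k.1 : ℤ) : A) * s 0) = 2 * ide t s k := by
    linear_combination ((k.1 : ℤ) : A) * h0 + ide t s k * a
  have c1 : ide t s k * (1 + ((k.2 : ℤ) : A) * s 1) = 2 * ide t s k := by
    linear_combination ((k.2 : ℤ) : A) * h1' + ide t s k * b
  have : ide t s k * ide t s k =
      t * t * (ide t s k * (1 + ((k.1 : ℤ) : A) * s 0)) * (1 + ((k.2 : ℤ) : A) * s 1) := by
    conv_lhs => rhs; unfold ide
    ring
  rw [this, c0]
  linear_combination 2 * t * t * c1 + (2 * t + 1) * ide t s k * ht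

theorem ide_orth {t : A} {s : Fin 3 → A} (h1 : ∀ i, s i * s i = 1) {k : K4} (hk : k ≠ 1) :
    ide t s k * ide t s 1 = 0 := by
  obtain ⟨u, v⟩ := k
  unfold ide
  simp only [Prod.fst_one, Prod.snd_one, Units.val_one, Int.cast_one]
  rcases Int.units_eq_one_or u with rfl | rfl
  · rcases Int.units_eq_one_or v with rfl | rfl
    · exact absurd rfl hk
    · simp only [Units.val_one, Units.val_neg, Int.cast_one, Int.cast_neg]
      linear_combination -(t ^ 4 * (1 + s 0) ^ 2) * h1 1
  · simp only [Units.val_one, Units.val_neg, Int.cast_one, Int.cast_neg]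
    linear_combination -(t ^ 4 * (1 + ((v : ℤ) : A) * s 1) * (1 + s 1)) * h1 0

/-- The adjugate matrices project to the eigenspaces. -/
theorem adj_mul (H : Sy d X) (i : Fin 3) :
    adjugate (X - d i • (1 : M3 A)) * X = d i • adjugate (X - d i • (1 : M3 A)) := by
  have := adjugate_mul (X - d i • (1 : M3 A))
  rw [H.2, zero_smul, Matrix.mul_sub, Matrix.mul_smul, Matrix.mul_one, sub_eq_zero] at this
  exact this

theorem Fm.mul_adj (H : Fm d X h) (i j : Fin 3) :
    (h * adjugate (X - d i • (1 : M3 A))) i j = (∏ l ∈ Finset.univ.erase i, (d l - d i)) * h i j := by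
  have h1 : h * (X - d i • (1 : M3 A)) = diagonal (fun l => d l - d i) * h := by
    rw [Matrix.mul_sub, H.2.2, Matrix.mul_smul, Matrix.mul_one, ← diagonal_sub, Matrix.sub_mul]
    congr 1
    ext p q
    simp [diagonal_mul]
  have h2 := congrArg adjugate h1
  rw [adjugate_mul_distrib, adjugate_mul_distrib, adjugate_diagonal] at h2
  have h3 : h * adjugate h = 1 := by rw [mul_adjugate, H.2.1, one_smul]
  have h4 : adjugate h * h = 1 := by rw [adjugate_mul, H.2.1, one_smul]
  have h5 := congrArg (fun M => h * M * h) h2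
  simp only [Matrix.mul_assoc, h4, Matrix.mul_one] at h5
  rw [← Matrix.mul_assoc h (adjugate h), h3, Matrix.one_mul] at h5
  rw [h5, diagonal_mul]

/-- Frames which agree modulo a square zero ideal are equal. -/
theorem Fm.uniq (hd : Sp d) (H : Fm d X h) (H' : Fm d X h') (I : Ideal A) (hI : I ^ 2 = ⊥)
    (hh : h'.map (Ideal.Quotient.mk I) = h.map (Ideal.Quotient.mk I)) : h' = h := by
  obtain ⟨s, h1, -, h3, h4⟩ := two_frames hd H H'
  have : ∀ i, s i = 1 := fun i => by
    have h5 : s i - 1 ∈ I := by
      rw [← Ideal.Quotient.eq, h4]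
      have := congrFun (congrFun (H.map (Ideal.Quotient.mk I)).orth i) i
      rw [← transpose_map] at this
      nth_rewrite 1 [← hh] at this
      rw [← Matrix.map_mul] at this
      simpa using this
    have h6 : (s i - 1) * (s i - 1) = 0 := by
      have := Ideal.mul_mem_mul h5 h5
      rwa [← pow_two, hI] at this
    have : 2 * (s i - 1) = 0 := by linear_combination h1 i - h6
    exact sub_eq_zero.1 (hd.two.mul_right_eq_zero.1 this)
  rw [h3, show s = fun _ => 1 from funext this, diagonal_one, Matrix.one_mul]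

/-- Frames lift modulo a square zero ideal. -/
theorem Fm.lift (hd : Sp d) (hX : Sy d X) (I : Ideal A) (hI : I ^ 2 = ⊥) {g : M3 (A ⧸ I)}
    (H : Fm (fun i => Ideal.Quotient.mk I (d i)) (X.map (Ideal.Quotient.mk I)) g) :
    ∃ h, Fm d X h ∧ h.map (Ideal.Quotient.mk I) = g := by
  set π := Ideal.Quotient.mk I with hπ
  have sq : ∀ x, π x = 1 → (x - 1) * (x - 1) = 0 := fun x hx => by
    have h5 : x - 1 ∈ I := by rw [← Ideal.Quotient.eq]; exact hx
    have := Ideal.mul_mem_mul h5 h5
    rwa [← pow_two, hI] at this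
  choose h0 hh0 using fun i j => Ideal.Quotient.mk_surjective (I := I) (g i j)
  have hu : ∀ i, ∃ c, c * ∏ l ∈ Finset.univ.erase i, (d l - d i) = 1 := fun i =>
    (IsUnit.prod_iff.2 fun l hl => hd.sep l i (Finset.ne_of_mem_erase hl)).exists_left_inv
  choose c hc using hu
  obtain ⟨t, ht⟩ := hd.two.exists_right_inv
  let h1 : M3 A := of fun i j => c i * (of h0 * adjugate (X - d i • (1 : M3 A))) i j
  have e1 : h1 * X = diagonal d * h1 := by
    ext i j
    have h2 : (of h0 * adjugate (X - d i • (1 : M3 A)) * X) i j =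
        d i * (of h0 * adjugate (X - d i • (1 : M3 A))) i j := by
      rw [Matrix.mul_assoc, adj_mul hX i, Matrix.mul_smul]; rfl
    rw [diagonal_mul, mul_apply]
    rw [mul_apply] at h2
    show ∑ l, c i * (of h0 * adjugate (X - d i • (1 : M3 A))) i l * X l j =
      d i * (c i * (of h0 * adjugate (X - d i • (1 : M3 A))) i j)
    simp only [mul_assoc, ← Finset.mul_sum]
    rw [h2]; ring
  have e0 : (of h0).map π = g := by ext i j; exact hh0 i j
  have e2 : h1.map π = g := by
    ext i j
    have h6 := H.mul_adj i j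
    rw [← map_sub_smul, ← RingHom.mapMatrix_apply π (X - _), ← RingHom.map_adjugate,
      RingHom.mapMatrix_apply] at h6
    nth_rewrite 1 [← e0] at h6
    rw [← Matrix.map_mul, map_apply] at h6
    have h7 := congrArg π (hc i)
    simp only [map_mul, map_prod, map_sub, map_one] at h7
    simp only [h1, map_apply, of_apply, map_mul]
    rw [h6, ← mul_assoc, h7, one_mul]
  have hG := offd hd (intw hX.1 e1 e1)
  set s : Fin 3 → A := fun i => (h1 * h1ᵀ) i i with hs
  have e3 : ∀ i, π (s i) = 1 := fun i => by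
    have := congrFun (congrFun H.orth i) i
    rw [← e2, ← transpose_map, ← Matrix.map_mul] at this
    simpa using this
  let r : Fin 3 → A := fun i => 1 - t * (s i - 1)
  have e4 : diagonal r * h1 * (diagonal r * h1)ᵀ = 1 := by
    rw [transpose_mul, diagonal_transpose, Matrix.mul_assoc, ← Matrix.mul_assoc h1, hG,
      diagonal_mul_diagonal, diagonal_mul_diagonal, ← diagonal_one]
    congr 1
    funext i
    have := sq _ (e3 i)
    simp only [r]
    linear_combination (t * t * s i - 2 * t) * this - (s i - 1) * ht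
  have e5 : (diagonal r * h1).map π = g := by
    rw [Matrix.map_mul, map_diag, e2]
    have : (fun i => π (r i)) = fun _ => 1 := funext fun i => by simp [r, e3]
    rw [this, diagonal_one, Matrix.one_mul]
  refine ⟨diagonal r * h1, ⟨mul_eq_one_comm.1 e4, ?_, ?_⟩, e5⟩
  · have h8 := congrArg det e4
    rw [det_mul, det_transpose, det_one] at h8
    have h9 := sq (diagonal r * h1).det (by rw [← det_map, e5, H.2.1])
    have : 2 * ((diagonal r * h1).det - 1) = 0 := by linear_combination h8 - h9
    exact sub_eq_zero.1 (hd.two.mul_right_eq_zero.1 this)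
  · rw [Matrix.mul_assoc, e1, ← Matrix.mul_assoc, ← Matrix.mul_assoc, diagonal_mul_diagonal,
      diagonal_mul_diagonal]
    simp only [mul_comm]

/-- Over an algebraically closed field there is a frame. -/
theorem exists_frame {L : Type} [Field L] [IsAlgClosed L] {d : Fin 3 → L} {X : M3 L} (hd : Sp d)
    (hX : Sy d X) : ∃ h, Fm d X h := by
  choose v hv0 hv using fun i => exists_vecMul_eq_zero_iff.2 (hX.2 i)
  have hv' : ∀ i, v i ᵥ* X = d i • v i := fun i => by
    have := hv i
    rwa [vecMul_sub, vecMul_smul, vecMul_one, sub_eq_zero] at this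
  have e1 : of v * X = diagonal d * of v := by
    ext i j
    rw [diagonal_mul]
    exact congrFun (hv' i) j
  have e2 : (of v).det ≠ 0 := by
    have := Module.End.eigenvectors_linearIndependent' (X.vecMulLinear : Module.End L _) d
      (fun i j hij => by_contra fun h => (hd.sep i j h).ne_zero (sub_eq_zero.2 hij)) v
      fun i => ⟨Module.End.mem_eigenspace_iff.2 (hv' i), hv0 i⟩
    exact ((isUnit_iff_isUnit_det _).1 (linearIndependent_rows_iff_isUnit.1 this)).ne_zero
  have hG := offd hd (intw hX.1 e1 e1)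
  set s : Fin 3 → L := fun i => (of v * (of v)ᵀ) i i with hs
  have e3 : ∀ i, s i ≠ 0 := by
    have := congrArg det hG
    rw [det_mul, det_transpose, det_diagonal] at this
    exact fun i => Finset.prod_ne_zero_iff.1 (this ▸ mul_ne_zero e2 e2) i (Finset.mem_univ i)
  choose r hr using fun i => IsAlgClosed.exists_eq_mul_self (s i)⁻¹
  have e4 : diagonal r * of v * (diagonal r * of v)ᵀ = 1 := by
    rw [transpose_mul, diagonal_transpose, Matrix.mul_assoc, ← Matrix.mul_assoc (of v), hG,
      diagonal_mul_diagonal, diagonal_mul_diagonal, ← diagonal_one]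
    congr 1
    funext i
    have := mul_inv_cancel₀ (e3 i)
    rw [hr i] at this
    linear_combination this
  have e5 : diagonal r * of v * X = diagonal d * (diagonal r * of v) := by
    rw [Matrix.mul_assoc, e1, ← Matrix.mul_assoc, ← Matrix.mul_assoc, diagonal_mul_diagonal,
      diagonal_mul_diagonal]
    simp only [mul_comm]
  have h8 := congrArg det e4
  rw [det_mul, det_transpose, det_one] at h8
  rcases mul_self_eq_one_iff.1 h8 with h9 | h9
  · exact ⟨_, mul_eq_one_comm.1 e4, h9, e5⟩
  · refine ⟨-(diagonal r * of v), ?_, ?_, ?_⟩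
    · rw [transpose_neg, Matrix.neg_mul, Matrix.mul_neg, neg_neg]
      exact mul_eq_one_comm.1 e4
    · rw [det_neg, h9]; norm_num
    · rw [Matrix.neg_mul, Matrix.mul_neg, e5]

end

end Vale.Agent.P286EJF
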